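import Vale.Agent.P281.MF.Hol

/-!
# P281, project T-V, block V13b (helper485): Hartogs' theorem across a submanifold of codimension
two, local form
-/

open Set Filter Metric Topology

noncomputable section

namespace Vale.Agent.P281.H485.Gen

variable {E : Type*} [NormedAddCommGroup E] [NormedSpace ℂ E] [FiniteDimensional ℂ E]

/-- The quantitative form of the independence of `dg_0`, `dg_1`. -/
theorem exists_dirs {g : Fin 2 → E → ℂ} {x₀ : E} (hg : ∀ a, AnalyticAt ℂ (g a) x₀)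
    (hs : Function.Surjective fun (ξ : E) (a : Fin 2) => fderiv ℂ (g a) x₀ ξ) :
    ∃ (ξ η : E) (ρ : ℝ), 0 < ρ ∧ (∀ y ∈ ball x₀ ρ, ∀ a, AnalyticAt ℂ (g a) y) ∧
      ∀ y ∈ ball x₀ ρ, ∀ y' ∈ ball x₀ ρ, ∀ t s : ℂ, y - y' = t • ξ + s • η →
        (∀ a, g a y = 0) → (∀ a, g a y' = 0) → t = 0 ∧ s = 0 := by
  obtain ⟨ξ, hξ⟩ := hs ![1, 0]
  obtain ⟨η, hη⟩ := hs ![0, 1]
  have hξ0 : fderiv ℂ (g 0) x₀ ξ = 1 := congrFun hξ 0
  have hξ1 : fderiv ℂ (g 1) x₀ ξ = 0 := congrFun hξ 1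
  have hη0 : fderiv ℂ (g 0) x₀ η = 0 := congrFun hη 0
  have hη1 : fderiv ℂ (g 1) x₀ η = 1 := congrFun hη 1
  set M : ℝ := ‖ξ‖ + ‖η‖ + 1 with hM
  have hM0 : 0 < M := by positivity
  have h1 : ∀ a, ∀ᶠ p : E × E in 𝓝 (x₀, x₀),
      ‖g a p.1 - g a p.2 - fderiv ℂ (g a) x₀ (p.1 - p.2)‖ ≤ (1 / (2 * M)) * ‖p.1 - p.2‖ :=
    fun a => (hg a).hasStrictFDerivAt.isLittleO.def (by positivity)
  have h2 : ∀ᶠ p : E × E in 𝓝 (x₀, x₀), ∀ a,
      ‖g a p.1 - g a p.2 - fderiv ℂ (g a) x₀ (p.1 - p.2)‖ ≤ (1 / (2 * M)) * ‖p.1 - p.2‖ :=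
    eventually_all.2 h1
  rw [nhds_prod_eq] at h2
  obtain ⟨P, hP, Q, hQ, hPQ⟩ := eventually_prod_iff.1 h2
  have h3 : ∀ᶠ y in 𝓝 x₀, P y ∧ Q y ∧ ∀ a, AnalyticAt ℂ (g a) y :=
    hP.and (hQ.and (eventually_all.2 fun a => (hg a).eventually_analyticAt))
  obtain ⟨ρ, hρ, hball⟩ := Metric.eventually_nhds_iff_ball.1 h3
  refine ⟨ξ, η, ρ, hρ, fun y hy => (hball y hy).2.2, ?_⟩
  intro y hy y' hy' t s hd hz hz'
  have h4 := hPQ (hball y hy).1 (hball y' hy').2.1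
  simp only at h4
  have h5 : ‖y - y'‖ ≤ M * max ‖t‖ ‖s‖ := by
    rw [hd]
    calc ‖t • ξ + s • η‖ ≤ ‖t‖ * ‖ξ‖ + ‖s‖ * ‖η‖ := by
          refine (norm_add_le _ _).trans ?_
          rw [norm_smul, norm_smul]
      _ ≤ max ‖t‖ ‖s‖ * ‖ξ‖ + max ‖t‖ ‖s‖ * ‖η‖ := by
          gcongr
          · exact le_max_left _ _
          · exact le_max_right _ _
      _ ≤ M * max ‖t‖ ‖s‖ := by
          have : 0 ≤ max ‖t‖ ‖s‖ := le_max_of_le_left (norm_nonneg _)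
          rw [hM]
          nlinarith
  have h6 : (1 / (2 * M)) * ‖y - y'‖ ≤ (1 / 2) * max ‖t‖ ‖s‖ := by
    calc (1 / (2 * M)) * ‖y - y'‖ ≤ (1 / (2 * M)) * (M * max ‖t‖ ‖s‖) := by gcongr
      _ = (1 / 2) * max ‖t‖ ‖s‖ := by field_simp
  have ht : ‖t‖ ≤ (1 / 2) * max ‖t‖ ‖s‖ := by
    have h7 := (h4 0).trans h6
    rw [hd, map_add, map_smul, map_smul, hξ0, hη0, hz, hz'] at h7
    simpa using h7
  have hs' : ‖s‖ ≤ (1 / 2) * max ‖t‖ ‖s‖ := by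
    have h7 := (h4 1).trans h6
    rw [hd, map_add, map_smul, map_smul, hξ1, hη1, hz, hz'] at h7
    simpa using h7
  have h8 : max ‖t‖ ‖s‖ ≤ 0 := by
    have := max_le ht hs'
    linarith
  exact ⟨norm_le_zero_iff.1 ((le_max_left _ _).trans h8),
    norm_le_zero_iff.1 ((le_max_right _ _).trans h8)⟩

/-- **Hartogs' theorem**, local form. -/
theorem hartogs_local {g : Fin 2 → E → ℂ} {x₀ : E} (hg : ∀ a, AnalyticAt ℂ (g a) x₀)
    (hs : Function.Surjective fun (ξ : E) (a : Fin 2) => fderiv ℂ (g a) x₀ ξ)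
    (h0 : ∀ a, g a x₀ = 0) {w : E → ℂ}
    (hw : ∀ᶠ z in 𝓝 x₀, (¬ ∀ a, g a z = 0) → DifferentiableAt ℂ w z) :
    ∃ W : E → ℂ, AnalyticAt ℂ W x₀ ∧ ∀ᶠ z in 𝓝 x₀, (¬ ∀ a, g a z = 0) → w z = W z := by
  obtain ⟨ξ, η, ρ₁, hρ₁, hana, hinj⟩ := exists_dirs hg hs
  obtain ⟨ρ₂, hρ₂, hw2⟩ := Metric.eventually_nhds_iff_ball.1 hw
  set ρ := min ρ₁ ρ₂ with hρdef
  have hρ : 0 < ρ := lt_min hρ₁ hρ₂
  have hsub1 : ball x₀ ρ ⊆ ball x₀ ρ₁ := ball_subset_ball (min_le_left _ _)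
  have hsub2 : ball x₀ ρ ⊆ ball x₀ ρ₂ := ball_subset_ball (min_le_right _ _)
  -- the open set where `w` is holomorphic
  set O : Set E := {z | z ∈ ball x₀ ρ ∧ ¬ ∀ a, g a z = 0} with hO
  have hOo : IsOpen O := by
    rw [isOpen_iff_mem_nhds]
    rintro z ⟨hz1, hz2⟩
    push Not at hz2
    obtain ⟨a, ha⟩ := hz2
    filter_upwards [isOpen_ball.mem_nhds hz1,
      (hana z (hsub1 hz1) a).continuousAt.eventually_ne ha] with y h1 h2
    exact ⟨h1, fun h => h2 (h a)⟩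
  have hwO : ∀ z ∈ O, DifferentiableAt ℂ w z := fun z hz => hw2 z (hsub2 hz.1) hz.2
  -- the radius of the circle
  obtain ⟨r, hr, hrξ⟩ : ∃ r : ℝ, 0 < r ∧ ∀ z ∈ ball x₀ (ρ / 2), ∀ t : ℂ, ‖t‖ ≤ r →
      z + t • ξ ∈ ball x₀ ρ := by
    refine ⟨ρ / (2 * (‖ξ‖ + 1)), by positivity, fun z hz t ht => ?_⟩
    rw [mem_ball, dist_eq_norm] at hz ⊢
    have h1 : ‖t • ξ‖ ≤ ρ / 2 := by
      rw [norm_smul]
      calc ‖t‖ * ‖ξ‖ ≤ ρ / (2 * (‖ξ‖ + 1)) * (‖ξ‖ + 1) := by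
            gcongr
            linarith
        _ = ρ / 2 := by field_simp
    calc ‖z + t • ξ - x₀‖ = ‖(z - x₀) + t • ξ‖ := by congr 1; abel
      _ ≤ ‖z - x₀‖ + ‖t • ξ‖ := norm_add_le _ _
      _ < ρ := by linarith
  have hx₀ : x₀ ∈ ball x₀ (ρ / 2) := mem_ball_self (by positivity)
  have hx₀' : x₀ ∈ ball x₀ ρ₁ := mem_ball_self hρ₁
  -- the tube around the circle
  have hcont : Continuous fun p : E × ℂ => p.1 + p.2 • ξ := by fun_prop
  have hopen : IsOpen {p : E × ℂ | p.1 + p.2 • ξ ∈ O ∧ p.2 ≠ 0} :=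
    (hOo.preimage hcont).inter (isOpen_ne.preimage continuous_snd)
  have hcirc : ({x₀} : Set E) ×ˢ sphere (0 : ℂ) r ⊆ {p : E × ℂ | p.1 + p.2 • ξ ∈ O ∧ p.2 ≠ 0} := by
    rintro ⟨z, t⟩ ⟨hz, ht⟩
    rw [mem_singleton_iff] at hz
    simp only at hz ht
    subst hz
    rw [mem_sphere_zero_iff_norm] at ht
    have ht0 : t ≠ 0 := by
      rintro rfl
      rw [norm_zero] at ht
      exact hr.ne ht
    have hm := hrξ z hx₀ t ht.le
    refine ⟨⟨hm, fun hcon => ht0 ?_⟩, ht0⟩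
    exact (hinj _ (hsub1 hm) z hx₀' t 0 (by simp) hcon h0).1
  obtain ⟨U, T, hU, hT, hxU, hsT, hUT⟩ := generalized_tube_lemma isCompact_singleton
    (isCompact_sphere (0 : ℂ) r) hopen hcirc
  have hxU' : x₀ ∈ U := hxU rfl
  let W : E → ℂ := fun z => (2 * Real.pi * Complex.I : ℂ)⁻¹ •
    ∮ t in C(0, r), (t - 0)⁻¹ • w (z + t • ξ)
  have hWd : DifferentiableOn ℂ W U := by
    suffices h : DifferentiableOn ℂ (fun z => ∮ t in C(0, r), (t - 0)⁻¹ • w (z + t • ξ)) U from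
      h.const_smul (2 * Real.pi * Complex.I : ℂ)⁻¹
    refine MF.differentiableOn_circleIntegral (G := fun p : E × ℂ => (p.2 - 0)⁻¹ •
      w (p.1 + p.2 • ξ)) hr.le hU hT hsT ?_
    rintro ⟨z, t⟩ hp
    have h1 := hUT hp
    simp only [mem_setOf_eq] at h1
    apply DifferentiableAt.differentiableWithinAt
    have h2 : DifferentiableAt ℂ (fun p : E × ℂ => (p.2 - 0)⁻¹) (z, t) := by
      refine DifferentiableAt.inv (by fun_prop) ?_
      simpa using h1.2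
    have h3 : DifferentiableAt ℂ (fun p : E × ℂ => w (p.1 + p.2 • ξ)) (z, t) := by
      refine DifferentiableAt.comp (g := w) (f := fun p : E × ℂ => p.1 + p.2 • ξ) (z, t) ?_
        (by fun_prop)
      exact hwO _ h1.1
    exact h2.smul h3
  have hWa : AnalyticAt ℂ W x₀ := MF.analyticAt_of_differentiableOn hU hWd hxU'
  refine ⟨W, hWa, ?_⟩
  -- good points
  have hgood : ∀ z ∈ ball x₀ (ρ / 2), (∀ t : ℂ, ‖t‖ ≤ r → ¬ ∀ a, g a (z + t • ξ) = 0) →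
      W z = w z := by
    intro z hz hgd
    have h1 : DifferentiableOn ℂ (fun t : ℂ => w (z + t • ξ)) (closedBall 0 r) := by
      intro t ht
      rw [mem_closedBall_zero_iff] at ht
      apply DifferentiableAt.differentiableWithinAt
      refine DifferentiableAt.comp (g := w) (f := fun t : ℂ => z + t • ξ) t ?_ (by fun_prop)
      exact hwO _ ⟨hrξ z hz t ht, hgd t ht⟩
    have h2 := h1.circleIntegral_sub_inv_smul (w := 0) (mem_ball_self hr)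
    show (2 * Real.pi * Complex.I : ℂ)⁻¹ • (∮ t in C(0, r), (t - 0)⁻¹ • w (z + t • ξ)) = w z
    rw [h2, zero_smul, add_zero, smul_smul, inv_mul_cancel₀ Complex.two_pi_I_ne_zero, one_smul]
  filter_upwards [isOpen_ball.mem_nhds hx₀, hU.mem_nhds hxU'] with z₁ hz₁ hz₁U hz₁g
  have hz₁O : z₁ ∈ O := ⟨ball_subset_ball (by linarith) hz₁, hz₁g⟩
  have hcw : ContinuousAt w z₁ := (hwO z₁ hz₁O).continuousAt
  have hcW : ContinuousAt W z₁ := (hWd.differentiableAt (hU.mem_nhds hz₁U)).continuousAt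
  have hfreq : ∃ᶠ z in 𝓝 z₁, w z = W z := by
    by_contra hcon
    rw [not_frequently] at hcon
    have hbad : ∀ᶠ z in 𝓝 z₁, z ∈ ball x₀ (ρ / 2) ∧
        ∃ t : ℂ, ‖t‖ ≤ r ∧ ∀ a, g a (z + t • ξ) = 0 := by
      filter_upwards [hcon, isOpen_ball.mem_nhds hz₁] with z h1 h2
      refine ⟨h2, ?_⟩
      by_contra h3
      push Not at h3
      refine h1 (hgood z h2 fun t ht => ?_).symm
      push Not
      exact h3 t ht
    obtain ⟨-, t₀, ht₀, hg₀⟩ := hbad.self_of_nhds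
    have htend : Tendsto (fun s : ℂ => z₁ + s • η) (𝓝[≠] 0) (𝓝 z₁) := by
      have : Continuous fun s : ℂ => z₁ + s • η := by fun_prop
      have h1 := this.tendsto 0
      rw [zero_smul, add_zero] at h1
      exact h1.mono_left nhdsWithin_le_nhds
    obtain ⟨s, ⟨hs1, t, ht, hgt⟩, hs0⟩ := ((htend.eventually hbad).and self_mem_nhdsWithin).exists
    have h1 := hinj _ (hsub1 (hrξ _ hs1 t ht)) _ (hsub1 (hrξ _ hz₁ t₀ ht₀)) (t - t₀) s
      (by rw [sub_smul]; abel) hgt hg₀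
    exact hs0 h1.2
  by_contra hne
  have h5 : ContinuousAt (fun y => w y - W y) z₁ := hcw.sub hcW
  refine hfreq ?_
  filter_upwards [h5.eventually_ne (sub_ne_zero.2 hne)] with y hy
  exact sub_ne_zero.1 hy

end Vale.Agent.P281.H485.Gen
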