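import Vale.Agent.P281.H64.Gen.SpecN
import Vale.Agent.P281.H383.Gen.Ext
import Vale.Agent.P281.H485.Gen.HarLoc

/-!
# P281, project T-V, block V13b (helper485): Hartogs' theorem across small sets of codimension two
-/

open scoped Manifold ContDiff Topology
open Set Filter

set_option linter.unusedSectionVars false

noncomputable section

namespace Vale.Agent.P281.H485.Gen

open Vale.Agent.P281 Vale.Agent.P281.MF Vale.Agent.P281.J
open Vale.Agent.P281.H64 Vale.Agent.P281.H64.Gen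
open Vale.Agent.P281.H64.Thin (IsThinSet)
open Vale.Agent.P281.H383.Gen (baire_closed dense_compl_small ne_freq eq_of_freq Reg)

variable {n : ℕ} {X : Type} [TopologicalSpace X] [ChartedSpace (Cm n) X]

/-- A function with nonzero differential at `x` is not zero near `x`. -/
theorem ne_of_dif {g : X → ℂ} {x : X} {ξ : Cm n} (h : J.dif (Cm n) g x ξ ≠ 0) :
    ¬ ∀ᶠ z in 𝓝 x, g z = 0 := by
  intro hcon
  apply h
  have h1 : g =ᶠ[𝓝 x] fun _ => (0 : ℂ) := hcon
  unfold J.dif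
  rw [h1.mfderiv_eq, mfderiv_const]
  rfl

/-- Small sets of codimension two are small. -/
theorem IsSmall2.small {N : Set X} (h : IsSmall2 (Cm n) N) : IsSmallSet (Cm n) N := by
  obtain ⟨hc, H, hH, hN⟩ := h
  refine ⟨hc, H, fun k => ⟨(hH k).1, fun y => ?_⟩, hN⟩
  by_cases hy : y ∈ H k
  · obtain ⟨g, hg, hs, he⟩ := (hH k).2 y hy
    obtain ⟨ξ, hξ⟩ := hs fun _ => 1
    refine ⟨g 0, hg 0, ne_of_dif (ξ := ξ) ?_, ?_⟩
    · have : J.dif (Cm n) (g 0) y ξ = 1 := congrFun hξ 0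
      rw [this]
      exact one_ne_zero
    · filter_upwards [he] with z hz hz'
      exact hz hz' 0
  · refine ⟨fun _ => 1, contMDiffAt_const, ?_, ?_⟩
    · intro hcon
      exact one_ne_zero hcon.self_of_nhds
    · filter_upwards [(hH k).1.isOpen_compl.mem_nhds hy] with z hz hz'
      exact absurd hz' hz

variable [IsManifold 𝓘(ℂ, Cm n) ω X]

/-- **Hartogs' theorem**, local form on a manifold. -/
theorem hartogsM {g : Fin 2 → X → ℂ} {x : X} (hg : ∀ a, HolV (Cm n) (g a) x)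
    (hs : Function.Surjective fun (ξ : Cm n) (a : Fin 2) => J.dif (Cm n) (g a) x ξ)
    (h0 : ∀ a, g a x = 0) {w : X → ℂ}
    (hw : ∀ᶠ z in 𝓝 x, (¬ ∀ a, g a z = 0) → HolV (Cm n) w z) :
    ∃ P : X → ℂ, HolV (Cm n) P x ∧ ∀ᶠ z in 𝓝 x, (¬ ∀ a, g a z = 0) → w z = P z := by
  set φ := chartAt (Cm n) x with hφ
  have hx : x ∈ φ.source := mem_chart_source (Cm n) x
  obtain ⟨W, hW, hWe⟩ := hartogs_local (E := Cm n) (g := fun a => g a ∘ φ.symm) (x₀ := φ x)
    (w := w ∘ φ.symm) (fun a => rep_analytic (hg a)) (by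
      intro y
      obtain ⟨ξ, hξ⟩ := hs y
      refine ⟨dV (Cm n) (chartAt (Cm n) x : X → Cm n) x ξ, ?_⟩
      rw [← hξ]
      funext a
      have h1 := dV_eq_chart (E := Cm n) hx (hg a)
      show fderiv ℂ (g a ∘ φ.symm) (φ x) (dV (Cm n) (chartAt (Cm n) x : X → Cm n) x ξ) = _
      show _ = dV (Cm n) (g a) x ξ
      rw [h1]
      rfl) (fun a => by
      show g a (φ.symm (φ x)) = 0
      rw [φ.left_inv hx, h0]) (by
      filter_upwards [(tendsto_symm x).eventually hw,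
        φ.open_target.mem_nhds (φ.map_source hx)] with v hv hvt hne
      have h1 := hv hne
      have h2 := h1.rep (x₀ := x) (φ.map_target hvt)
      rw [show chartAt (Cm n) x (φ.symm v) = v from φ.right_inv hvt] at h2
      exact h2.differentiableAt (by simp))
  refine ⟨fun z => W (φ z), of_analytic hW, ?_⟩
  filter_upwards [(tendsto_chart x).eventually hWe, φ.open_source.mem_nhds hx] with z hz hzs hne
  have h1 : (∀ a, (g a ∘ φ.symm) (φ z) = 0) ↔ ∀ a, g a z = 0 := by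
    refine forall_congr' fun a => ?_
    show g a (φ.symm (φ z)) = 0 ↔ _
    rw [φ.left_inv hzs]
  have h2 := hz (by rw [h1]; exact hne)
  have h3 : w (φ.symm (φ z)) = W (φ z) := h2
  rwa [φ.left_inv hzs] at h3

variable [T2Space X]

/-- Baire's theorem on a closed subset of the open set `U`. -/
theorem baire_open [LocallyCompactSpace X] {U V : Set X} (hU : IsOpen U) (hV : IsOpen V)
    (hne : ¬ U ⊆ V) {H : ℕ → Set X} (hH : ∀ k, IsClosed (H k)) (hsub : U \ V ⊆ ⋃ k, H k) :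
    ∃ k, ∃ x ∈ U, x ∉ V ∧ ∀ᶠ z in 𝓝 x, z ∉ V → z ∈ H k := by
  have : LocallyCompactSpace U := hU.isOpenEmbedding_subtypeVal.locallyCompactSpace
  obtain ⟨y, hyU, hyV⟩ := not_subset.1 hne
  obtain ⟨k, x, hx, N, hN, hxN, hNk⟩ := baire_closed (X := U) (A := Subtype.val ⁻¹' Vᶜ)
    (hV.isClosed_compl.preimage continuous_subtype_val) ⟨⟨y, hyU⟩, hyV⟩
    (H := fun k => Subtype.val ⁻¹' (H k)) (fun k => (hH k).preimage continuous_subtype_val)
    (by
      intro z hz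
      obtain ⟨k, hk⟩ := mem_iUnion.1 (hsub ⟨z.2, hz⟩)
      exact mem_iUnion.2 ⟨k, hk⟩)
  refine ⟨k, x, x.2, hx, ?_⟩
  have h1 : Subtype.val '' N ∈ 𝓝 (x : X) :=
    (hU.isOpenMap_subtype_val N hN).mem_nhds ⟨x, hxN, rfl⟩
  filter_upwards [h1] with z hz hzV
  obtain ⟨z', hz', rfl⟩ := hz
  exact hNk ⟨hzV, hz'⟩

/-- **Hartogs' theorem** across small sets of codimension two. -/
theorem hartogs {N U : Set X} {s : X → ℂ} (hN : IsSmall2 (Cm n) N) (hU : IsOpen U)
    (hs : ∀ x ∈ U, x ∉ N → HolV (Cm n) s x) :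
    ∃ s' : X → ℂ, (∀ x ∈ U, HolV (Cm n) s' x) ∧ ∀ x ∈ U, x ∉ N → s' x = s x := by
  classical
  have : LocallyCompactSpace X := ChartedSpace.locallyCompactSpace (Cm n) X
  have hdense : Dense Nᶜ := dense_compl_small (IsSmall2.small hN)
  have hfr : ∀ z, ∃ᶠ t in 𝓝 z, t ∉ N := fun z => mem_closure_iff_frequently.1 (hdense z)
  have hNo : IsOpen Nᶜ := hN.1.isOpen_compl
  set V : Set X := {x | Reg (n := n) N s x} with hV
  have hVev : ∀ x ∈ V, ∀ᶠ y in 𝓝 x, y ∈ V := by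
    rintro x ⟨Q, hQ, hQe⟩
    filter_upwards [hQ.eventually, eventually_eventually_nhds.2 hQe] with y h1 h2
    exact ⟨Q, h1, h2⟩
  have hVo : IsOpen V := isOpen_iff_mem_nhds.2 hVev
  have hSV : ∀ x ∈ U, x ∉ N → x ∈ V := fun x hxU hx =>
    ⟨s, hs x hxU hx, Eventually.of_forall fun z _ => rfl⟩
  have hch : ∀ x, ∃ Q : X → ℂ, x ∈ V → HolV (Cm n) Q x ∧ ∀ᶠ z in 𝓝 x, z ∉ N → s z = Q z := by
    intro x
    by_cases hx : x ∈ V
    · obtain ⟨Q, hQ⟩ := hx
      exact ⟨Q, fun _ => hQ⟩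
    · exact ⟨0, fun h => absurd h hx⟩
  choose Q hQ using hch
  set w : X → ℂ := fun z => Q z z with hw
  have hwQ : ∀ y ∈ V, w =ᶠ[𝓝 y] Q y := by
    intro y hy
    obtain ⟨h1, h2⟩ := hQ y hy
    filter_upwards [h1.eventually, eventually_eventually_nhds.2 h2, hVev y hy] with z h3 h4 h5
    obtain ⟨h6, h7⟩ := hQ z h5
    show Q z z = Q y z
    refine eq_of_freq (f := Q z) (g := Q y) h6.continuousAt h3.continuousAt ?_
    refine ((hfr z).and_eventually (h4.and h7)).mono ?_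
    rintro t ⟨ht1, ht2, ht3⟩
    rw [← ht2 ht1, ← ht3 ht1]
  have hwV : ∀ y ∈ V, HolV (Cm n) w y := fun y hy => (hQ y hy).1.congr (hwQ y hy)
  have hwu : ∀ y ∈ V, y ∉ N → w y = s y := fun y hyV hy =>
    ((hQ y hyV).2.self_of_nhds hy).symm
  -- Baire
  have hUV : U ⊆ V := by
    by_contra hne
    obtain ⟨-, H, hH, hSH⟩ := id hN
    obtain ⟨k, x, hxU, hxV, hNk⟩ := baire_open hU hVo hne (fun k => (hH k).1) (by
      rintro z ⟨hz1, hz2⟩
      exact hSH (by_contra fun h => hz2 (hSV z hz1 h)))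
    have hxk : x ∈ H k := hNk.self_of_nhds hxV
    obtain ⟨g, hg, hgs, hge⟩ := (hH k).2 x hxk
    have hg' : ∀ a, HolV (Cm n) (g a) x := hg
    have hg0 : ∀ a, g a x = 0 := hge.self_of_nhds hxk
    have hgV : ∀ᶠ z in 𝓝 x, (¬ ∀ a, g a z = 0) → z ∈ V := by
      filter_upwards [hge, hNk] with z h1 h2 h3
      by_contra hzV
      exact h3 (h1 (h2 hzV))
    obtain ⟨P, hP, hPe⟩ := hartogsM hg' hgs hg0 (w := w)
      (by filter_upwards [hgV] with z h1 h2 using hwV z (h1 h2))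
    have hgne : ¬ ∀ᶠ z in 𝓝 x, g 0 z = 0 := by
      obtain ⟨ξ, hξ⟩ := hgs fun _ => 1
      refine ne_of_dif (ξ := ξ) ?_
      have : J.dif (Cm n) (g 0) x ξ = 1 := congrFun hξ 0
      rw [this]
      exact one_ne_zero
    refine hxV ⟨P, hP, ?_⟩
    filter_upwards [hP.eventually, eventually_eventually_nhds.2 hPe,
      eventually_eventually_nhds.2 hgV, ne_freq (hg' 0) hgne, hU.mem_nhds hxU]
      with z h1 h2 h2' h3 hzU hzN
    refine eq_of_freq (hs z hzU hzN).continuousAt h1.continuousAt ?_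
    refine (h3.and_eventually (h2.and (h2'.and (hNo.mem_nhds hzN)))).mono ?_
    rintro t ⟨ht1, ht2, ht3, ht4⟩
    have ht5 : ¬ ∀ a, g a t = 0 := fun h => ht1 (h 0)
    rw [← hwu t (ht3 ht5) ht4]
    exact ht2 ht5
  exact ⟨w, fun x hx => hwV x (hUV hx), fun x hx hxN => hwu x (hUV hx) hxN⟩

/-- **V13b** -/
theorem har : HartogsStmt := by
  intro n X _ _ _ _ N U s hN hU hs
  exact hartogs hN hU hs

end Vale.Agent.P281.H485.Gen
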